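import Crest.Agent.X212.Lns95.Dsc

/-!
# Row 212, LENS-PRF (helper9): the profile of the cap exists
-/

set_option autoImplicit false
noncomputable section
open Set Filter Topology Function
open scoped ContDiff Manifold

namespace Crest.Agent.X212.Prf9
open Real (smoothTransition)

theorem prim {φ : ℝ → ℝ} {r : ℝ} (hr : 0 < r) (h : ContDiff ℝ ∞ φ) (h0 : ∀ x ≤ r, φ x = 0) :
    ∃ G : ℝ → ℝ, ContDiff ℝ ∞ G ∧ (∀ x, HasDerivAt G (φ x / (2 * √x)) x) ∧ ∀ x ≤ r, G x = 0 := by
  have hg : ContDiff ℝ ∞ fun x => φ x / (2 * √x) := contDiff_iff_contDiffAt.2 fun x => by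
    rcases lt_or_ge x r with k | k
    · exact contDiffAt_const.congr_of_eventuallyEq (f := fun _ => 0)
        ((gt_mem_nhds k).mono fun y hy => by simp [h0 y hy.le])
    · have := hr.trans_le k
      exact h.contDiffAt.div (contDiffAt_const.mul (Real.contDiffAt_sqrt this.ne')) (by positivity)
  have d := fun x => (hg.continuous.integral_hasStrictDerivAt r x).hasDerivAt
  refine ⟨_, contDiff_infty_iff_deriv.2 ⟨fun x => (d x).differentiableAt, ?_⟩, d, fun x hx => ?_⟩
  · rwa [funext fun x => (d x).deriv]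
  · rw [intervalIntegral.integral_congr (g := fun _ => 0) fun y hy => by
      simp [h0 y ((uIcc_of_ge hx ▸ hy : y ∈ Icc x r).2)]]
    simp

theorem glue {A B : ℝ → ℝ} {r : ℝ} (hr : 0 < r) (hA : ContDiffAt ℝ ∞ A 0)
    (hB : ∀ x, 0 < x → ContDiffAt ℝ ∞ B x) (e : ∀ x, 0 < x → x < r → B x = A x) :
    ∃ p : ℝ → ℝ, (∀ x, 0 ≤ x → ContDiffAt ℝ ∞ p x) ∧ p 0 = A 0 ∧ ∀ x, 0 < x → p x = B x := by
  refine ⟨fun x => if 0 < x then B x else A x, fun x hx => ?_, by simp, fun x hx => if_pos hx⟩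
  rcases hx.eq_or_lt with rfl | hx
  · exact hA.congr_of_eventuallyEq ((gt_mem_nhds hr).mono fun y hy => by
      by_cases k : 0 < y <;> simp [k, e y, hy])
  · exact (hB x hx).congr_of_eventuallyEq ((lt_mem_nhds hx).mono fun y hy => if_pos hy)

theorem prf : Lns95.PrfStmt := by
  intro n a' a b b' h hn ha' h1 h2 h3 hh
  have hN : (1 : ℝ) ≤ n := by exact_mod_cast hn
  obtain ⟨χ, χ0, χ1, χI⟩ := exists_contMDiffMap_zero_one_nhds_of_isClosed (n := ⊤) 𝓘(ℝ, ℝ)
    (isOpen_Ioo (a := a') (b := b')).isClosed_compl (isClosed_Icc (a := a) (b := b))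
    (disjoint_compl_left_iff_subset.2 (Icc_subset_Ioo h1 h3))
  have cχ : ContDiff ℝ ∞ χ := χ.contMDiff.contDiff
  have χz : ∀ x, x ∉ Ioo a' b' → ∀ᶠ y in 𝓝 x, χ y = 0 := fun x hx => χ0.filter_mono (nhds_le_nhdsSet hx)
  obtain ⟨d, hd, ed⟩ : ∃ d : ℝ, 0 < d ∧ a' = 4 * n * d := ⟨a' / (4 * n), by positivity, by field_simp⟩
  have hr : 0 < a' - d := by nlinarith
  obtain ⟨β, cβ, βa, β0, β1, βo, βz, βp⟩ : ∃ β : ℝ → ℝ, ContDiff ℝ ∞ β ∧ Antitone β ∧ (∀ x, 0 ≤ β x) ∧
      (∀ x, β x ≤ 1) ∧ (∀ x ≤ a' - d, β x = 1) ∧ (∀ x, β x = 0 ↔ a' ≤ x) ∧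
      ∀ x, a' - d < x → β x < 1 :=
    ⟨fun x => smoothTransition ((a' - x) / d), smoothTransition.contDiff.comp (by fun_prop),
      fun x y k => smoothTransition.monotone (by gcongr), fun _ => smoothTransition.nonneg _,
      fun _ => smoothTransition.le_one _,
      fun x k => smoothTransition.one_of_one_le (by rw [le_div_iff₀ hd]; linarith),
      fun x => by simp [div_nonpos_iff, hd.le, hd.not_ge],
      fun x k => smoothTransition.lt_one_of_lt_one (by rw [div_lt_iff₀ hd]; linarith)⟩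
  obtain ⟨L, eL⟩ : ∃ L : ℝ → ℝ, L = fun x => (a' - x) / (4 * d) := ⟨_, rfl⟩
  have cL : ContDiff ℝ ∞ L := by rw [eL]; fun_prop
  have Lp : ∀ x < a', 0 < L x := fun x k => by rw [eL]; exact div_pos (sub_pos.2 k) (by positivity)
  have La : Antitone L := fun x y k => by simp only [eL]; gcongr
  have L0 : L 0 = n := by simp only [eL, ed]; field_simp; ring
  obtain ⟨f1, e1⟩ : ∃ f1 : ℝ → ℝ, f1 = fun x => L x * β x := ⟨_, rfl⟩
  have c1 : ContDiff ℝ ∞ f1 := e1 ▸ cL.mul cβ
  have f1z : ∀ x, a' ≤ x → f1 x = 0 := fun x k => by simp [e1, (βz x).2 k]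
  have f1p : ∀ x < a', 0 < f1 x := fun x k =>
    e1 ▸ mul_pos (Lp x k) ((β0 x).lt_of_ne' fun e => k.not_ge ((βz x).1 e))
  have f10 : ∀ x, 0 ≤ f1 x := fun x => (lt_or_ge x a').elim (fun k => (f1p x k).le) fun k => (f1z x k).ge
  have f1o : ∀ x ≤ a' - d, f1 x = L x := fun x k => by simp [e1, βo x k]
  have f1a : Antitone f1 := fun x y k => (lt_or_ge y a').elim (fun j => e1 ▸
    mul_le_mul (La k) (βa k) (β0 y) (Lp x (k.trans_lt j)).le) fun j => (f1z y j).trans_le (f10 x)
  have f1L : ∀ x, 1 / 2 ≤ f1 x → x ≤ a' - 2 * d := fun x k => by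
    by_contra! j
    have : x < a' := by by_contra! i; linarith [f1z x i]
    have : L x < 1 / 2 := by rw [eL, div_lt_iff₀ (by positivity)]; linarith
    have : f1 x ≤ L x := e1 ▸ mul_le_of_le_one_right (Lp x ‹_›).le (β1 x)
    linarith
  obtain ⟨M, eM⟩ : ∃ M : ℝ → ℝ, M = fun x => f1 x + (1 - β x) := ⟨_, rfl⟩
  have cM : ContDiff ℝ ∞ M := eM ▸ c1.add (contDiff_const.sub cβ)
  have Mp : ∀ x, 0 < M x := fun x => by
    rw [eM]
    rcases lt_or_ge x a' with k | k
    · linarith [f1p x k, β1 x]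
    · simp [f1z x k, (βz x).2 k]
  have Mo : ∀ x ≤ a' - d, M x = L x := fun x k => by simp [eM, βo x k, f1o x k]
  have cu : ContDiff ℝ ∞ fun x => f1 x / M x := c1.div cM fun x => (Mp x).ne'
  obtain ⟨G, cG, dG, G0⟩ := prim hr (contDiff_const.sub cu (f := fun _ => 1)) fun x k => by
    rw [f1o x k, ← Mo x k, div_self (Mp x).ne', sub_self]
  obtain ⟨K, cK, dK, K0⟩ := prim hr ((contDiff_const.sub cβ (f := fun _ => 1)).mul cu) fun x k => by
    rw [βo x k, sub_self, zero_mul]
  have Ga : 0 ≤ G a' := (G0 _ le_rfl).ge.trans (monotone_of_deriv_nonneg (fun x => (dG x).differentiableAt)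
    (fun x => by
      rw [(dG x).deriv]
      exact div_nonneg (sub_nonneg.2 ((div_le_one (Mp x)).2 (by rw [eM]; linarith [β1 x])))
        (by positivity)) (by linarith))
  have Ka : 0 < K a' := (K0 _ le_rfl).ge.trans_lt (strictMonoOn_of_deriv_pos (convex_Icc (a' - d) a')
    cK.continuous.continuousOn (fun x k => by
      rw [interior_Icc] at k
      have := hr.trans k.1
      rw [(dK x).deriv]
      exact div_pos (mul_pos (sub_pos.2 (βp x k.1)) (div_pos (f1p x k.2) (Mp x))) (by positivity))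
    ⟨le_rfl, by linarith⟩ ⟨by linarith, le_rfl⟩ (by linarith))
  obtain ⟨s, hs, es⟩ : ∃ s : ℝ, 0 < s ∧ s ^ 2 * ((2 * n - 1) * (4 * d)) = 1 := by
    have : 0 < (2 * n - 1) * (4 * d) := mul_pos (by linarith) (by positivity)
    exact ⟨√(1 / ((2 * n - 1) * (4 * d))), by positivity, by
      rw [Real.sq_sqrt (by positivity), one_div_mul_cancel this.ne']⟩
  have sa : s * √a' ≤ 1 := abs_le_of_sq_le_sq' (by
    rw [mul_pow, Real.sq_sqrt ha'.le, ed]; nlinarith [mul_pos (pow_pos hs 2) hd]) zero_le_one |>.2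
  obtain ⟨l, hl, el⟩ : ∃ l : ℝ, 0 ≤ l ∧ s * (√a' - G a' + l * K a') = 1 :=
    ⟨(1 - s * √a' + s * G a') / (s * K a'), div_nonneg (by nlinarith) (by positivity), by field_simp; ring⟩
  obtain ⟨f, ef⟩ : ∃ f : ℝ → ℝ, f = fun x => s * (√x - G x + l * K x) := ⟨_, rfl⟩
  obtain ⟨Q, eQ⟩ : ∃ Q : ℝ → ℝ, Q = fun x => s * (1 + l * (1 - β x)) / M x / (2 * √x) := ⟨_, rfl⟩
  obtain ⟨H, eH⟩ : ∃ H : ℝ → ℝ, H = fun x => (1 - χ x) * Q x + χ x * h x := ⟨_, rfl⟩
  have cs : ∀ x : ℝ, 0 < x → ContDiffAt ℝ ∞ (fun x : ℝ => √x) x := fun x k => Real.contDiffAt_sqrt k.ne'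
  have cf : ∀ x, 0 < x → ContDiffAt ℝ ∞ f x := fun x k => ef ▸ contDiffAt_const.mul
    (((cs x k).sub cG.contDiffAt).add (contDiffAt_const.mul cK.contDiffAt))
  have Qp : ∀ x, 0 < x → 0 < Q x := fun x k => by
    have := Mp x
    have := sub_nonneg.2 (β1 x)
    rw [eQ]; positivity
  have HQ : ∀ x ≤ a', H x = Q x := fun x k => by
    have : χ x = 0 := (χz x fun j => j.1.not_ge k).self_of_nhds
    simp [eH, this]
  have Hp : ∀ x, 0 < x → 0 < H x := fun x k => by
    by_cases j : x ∈ Ioo a' b'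
    · have := χI x
      rw [eH]
      rcases this.1.eq_or_lt with i | i
      · simpa [← i] using Qp x k
      · nlinarith [mul_pos i (hh x j).2, mul_nonneg (sub_nonneg.2 this.2) (Qp x k).le]
    · simpa [eH, (χz x j).self_of_nhds] using Qp x k
  have cH : ∀ x, 0 < x → ContDiffAt ℝ ∞ H x := fun x k => by
    have cQ : ContDiffAt ℝ ∞ Q x := eQ ▸ (((contDiff_const.mul (contDiff_const.add (contDiff_const.mul
      (contDiff_const.sub cβ)))).div cM fun x => (Mp x).ne').contDiffAt.div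
        (contDiffAt_const.mul (cs x k)) (by positivity))
    refine eH ▸ ((contDiff_const.sub cχ).contDiffAt.mul cQ).add ?_
    by_cases j : x ∈ Ioo a' b'
    · exact cχ.contDiffAt.mul (hh x j).1
    · exact contDiffAt_const.congr_of_eventuallyEq (f := fun _ => 0) ((χz x j).mono fun y hy => by simp [hy])
  have df : ∀ x, 0 < x → HasDerivAt f (f1 x * H x) x := fun x k => by
    have : f1 x * H x = f1 x * Q x := (le_total x a').elim (fun j => by rw [HQ x j]) fun j => by
      simp [f1z x j]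
    rw [this, ef, eQ]
    exact ((((Real.hasDerivAt_sqrt k.ne').sub (dG x)).add ((dK x).const_mul l)).const_mul s).congr_deriv
      (by ring)
  have fm : MonotoneOn f (Ioi 0) := monotoneOn_of_deriv_nonneg (convex_Ioi 0)
    (fun x k => (cf x k).continuousAt.continuousWithinAt)
    (fun x k => (df x (interior_subset k)).differentiableAt.differentiableWithinAt) fun x k => by
      rw [(df x (interior_subset k)).deriv]
      exact mul_nonneg (f10 x) (Hp x (interior_subset k)).le
  have fo : ∀ x ≤ a' - d, f x = s * √x := fun x k => by simp [ef, G0 x k, K0 x k]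
  have fz : ∀ x, a' ≤ x → f x = 1 := fun x k => (constant_of_has_deriv_right_zero (a := a') (b := x)
    (fun y j => (cf y (ha'.trans_le j.1)).continuousAt.continuousWithinAt) (fun y j => by
      simpa [f1z y j.1] using (df y (ha'.trans_le j.1)).hasDerivWithinAt) x ⟨k, le_rfl⟩).trans (ef ▸ el)
  have fp : ∀ x, 0 < x → 0 < f x := fun x k => (le_total x (a' - d)).elim
    (fun j => by rw [fo x j]; positivity) fun j => lt_of_lt_of_le (by rw [fo _ le_rfl]; positivity) (fm hr k j)
  have Ho : ∀ x ≤ a' - d, H x = s / L x / (2 * √x) := fun x k => by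
    simp [HQ x (by linarith), eQ, βo x k, Mo x k]
  have cB : ∀ x, 0 < x → ContDiffAt ℝ ∞ (fun x => f x / (n * √x)) x := fun x k =>
    (cf x k).div (contDiffAt_const.mul (cs x k)) (by positivity)
  obtain ⟨p1, s1, z1, w1⟩ := glue hr (A := fun _ => s / n) contDiffAt_const cB fun x k j => by
    rw [fo x j.le]; field_simp
  obtain ⟨p2, s2, -, w2⟩ := glue hr (A := fun x => s / (8 * d * n) / L x)
    (B := fun x => (2 * √x * H x - f x / (n * √x)) / (2 * x))
    (contDiffAt_const.div cL.contDiffAt (Lp 0 ha').ne')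
    (fun x k => (((contDiffAt_const.mul (cs x k)).mul (cH x k)).sub (cB x k)).div
      (contDiffAt_const.mul contDiffAt_id) (by positivity)) fun x k j => by
    have := Lp x (by linarith)
    have e : L x = n - x / (4 * d) := by simp only [eL, ed]; field_simp
    rw [fo x j.le, Ho x j.le]
    field_simp
    rw [e]
    field_simp
    ring
  obtain ⟨p3, s3, -, w3⟩ := glue hr (A := fun _ => -1 / (4 * d)) (B := fun x => (f1 x - n) / x)
    contDiffAt_const (fun x k => (c1.contDiffAt.sub contDiffAt_const).div contDiffAt_id k.ne')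
    fun x k j => by simp only [f1o x j.le, eL, ed]; field_simp; ring
  have k2 : ∀ x, 0 < x → p1 x + 2 * x * p2 x = 2 * √x * H x := fun x k => by
    rw [w1 x k, w2 x k]; field_simp; ring
  have p1p : ∀ x, 0 ≤ x → 0 < p1 x := fun x k => k.eq_or_lt.elim (fun j => by rw [← j, z1]; positivity)
    fun j => by have := fp x j; rw [w1 x j]; positivity
  refine ⟨⟨p1, p2, p3, f, f1, fun x => deriv f1 x / H x, H, s1, s2, s3, p1p, fun x k => ?_,
    fun x k => by rw [w1 x k]; field_simp, fun x k => by rw [w3 x k]; field_simp; ring,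
    fun x k => by rw [k2 x k]; field_simp, df, fun x k => ?_,
    fun x k => (le_total x a').elim (fun j => (fm k ha' j).trans_eq (fz _ le_rfl)) fun j => (fz x j).le,
    fun x _ => f10 x, fun x k => (f1a k.le).trans_eq ((f1o 0 hr.le).trans L0),
    fun x k => div_nonpos_of_nonpos_of_nonneg f1a.deriv_nonpos (Hp x k).le, fun x k j => ?_,
    fun x k => ?_⟩, fun x k => ⟨fz x k, f1z x k, ?_⟩, fun x k => ?_⟩
  · rcases k.eq_or_lt with rfl | k
    · simpa using p1p 0 le_rfl
    · have := Hp x k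
      rw [k2 x k]; positivity
  · rw [div_mul_cancel₀ _ (Hp x k).ne']
    exact (c1.differentiable (by simp) x).hasDerivAt
  · have i := f1L x j
    have i' : x < a' - d := by linarith
    have : deriv f1 x = -1 / (4 * d) := by
      rw [EventuallyEq.deriv_eq ((gt_mem_nhds i').mono fun y hy => f1o y hy.le), eL]
      exact (((hasDerivAt_id x).const_sub a').div_const _).deriv
    rw [f1o x i'.le] at j
    rw [this, Ho x i'.le, fo x i'.le, show -(-1 / (4 * d) / (s / L x / (2 * √x))) / (s * √x) =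
      2 * L x / (s ^ 2 * (4 * d)) by field_simp, le_div_iff₀ (by positivity)]
    linarith
  · by_cases j : x ≤ a' - 2 * d
    · left
      rw [f1o x (by linarith), eL, le_div_iff₀ (by positivity)]
      linarith
    · have i : 0 < a' - 2 * d := by nlinarith
      refine Or.inr (le_trans ?_ (fm i k (not_le.1 j).le))
      rw [fo _ (by linarith)]
      refine abs_le_of_sq_le_sq' ?_ (by positivity) |>.2
      rw [mul_pow, Real.sq_sqrt i.le, ed]
      linarith
  · exact div_eq_zero_iff.2 (Or.inl (IsLocalMin.deriv_eq_zero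
      (Eventually.of_forall fun y => (f1z x k).trans_le (f10 y))))
  · simp [eH, χ1.self_of_nhdsSet x k]

end Crest.Agent.X212.Prf9
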